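import Vale.Agent.P145.FB.Tassion
import Vale.Agent.P145.FB.Geo

/-!
# Abstract RSW from easy crossings, I: deterministic part

Letters of `P145/FB`. A gap is a small box; an arm joins a gap to a side of a box.
-/

namespace Vale.Agent.P159.TM.H627.Rsw

open Vale.Agent.P145.FB Vale.Agent.P153 Vale.Agent.P153.Topo

/-- A gap. -/
def gp (x y r : ℤ) : Set (ℤ × ℤ) := rc x (x + r) y (y + r)

/-- A path of `S` in `rc a b c d` from the gap to the top side. -/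
def NArm (a b c d x y r : ℤ) (S : Set (ℤ × ℤ)) : Prop :=
  ∃ u v, NC (S ∩ rc a b c d) u v ∧ u ∈ gp x y r ∧ v.2 = 2 * d

/-- A path of `S` in `rc a b c d` from the gap to the bottom side. -/
def SArm (a b c d x y r : ℤ) (S : Set (ℤ × ℤ)) : Prop :=
  ∃ u v, NC (S ∩ rc a b c d) u v ∧ u ∈ gp x y r ∧ v.2 = 2 * c

/-- A path of `S` in `rc a b c d` from the gap to the left side. -/
def WArm (a b c d x y r : ℤ) (S : Set (ℤ × ℤ)) : Prop :=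
  ∃ u v, NC (S ∩ rc a b c d) u v ∧ u ∈ gp x y r ∧ v.1 = 2 * a

/-- A left-right crossing of `rc a b c d` which avoids the set `G`. -/
def Av (G : Set (ℤ × ℤ)) (a b c d : ℤ) (S : Set (ℤ × ℤ)) : Prop :=
  ∃ u v, NC (S ∩ (rc a b c d ∩ Gᶜ)) u v ∧ u.1 = 2 * a ∧ v.1 = 2 * b

/-- The vertical strip. -/
def strip (a b : ℤ) : Set (ℤ × ℤ) := {z | 2 * a ≤ z.1 ∧ z.1 ≤ 2 * b}

theorem rc_sub_strip (a b c d : ℤ) : rc a b c d ⊆ strip a b := fun _ hz => ⟨hz.1, hz.2.1⟩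

theorem IL_NArm (a b c d x y r : ℤ) : IL (NArm a b c d x y r) :=
  IL_ex _ (rc_bdd a b c d) (fun u v => u ∈ gp x y r ∧ v.2 = 2 * d)

theorem IL_SArm (a b c d x y r : ℤ) : IL (SArm a b c d x y r) :=
  IL_ex _ (rc_bdd a b c d) (fun u v => u ∈ gp x y r ∧ v.2 = 2 * c)

theorem IL_WArm (a b c d x y r : ℤ) : IL (WArm a b c d x y r) :=
  IL_ex _ (rc_bdd a b c d) (fun u v => u ∈ gp x y r ∧ v.1 = 2 * a)

theorem IL_Av (G : Set (ℤ × ℤ)) (a b c d : ℤ) : IL (Av G a b c d) :=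
  IL_ex _ (fun z hz => rc_bdd a b c d z hz.1) (fun u v => u.1 = 2 * a ∧ v.1 = 2 * b)

theorem conn_rc {a b c d : ℤ} {x y : ℤ × ℤ} (hx : x ∈ rc a b c d) (hy : y ∈ rc a b c d) :
    Conn (rc a b c d) x y := by
  obtain ⟨x1, x2⟩ := x
  obtain ⟨y1, y2⟩ := y
  rw [mem_rc] at hx hy
  simp only at hx hy
  have e1 : Conn (rc a b c d) (x1, x2) (y1, x2) := conn_row (fun i h1 h2 => by
    rw [mem_rc]; simp only; omega)
  have e2 : Conn (rc a b c d) (y1, x2) (y1, y2) := conn_col (fun i h1 h2 => by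
    rw [mem_rc]; simp only; omega)
  exact e1.trans e2

/-- A path in a strip between two heights contains a bottom-top crossing. -/
theorem btc_of {S : Set (ℤ × ℤ)} {a b c d : ℤ} (hcd : c ≤ d) {u v : ℤ × ℤ}
    (h : NC (S ∩ strip a b) u v) (hu : u.2 ≤ 2 * c) (hv : 2 * d ≤ v.2) : BTc a b c d S := by
  obtain ⟨z, w, hz, hw, hzw, _, _⟩ := h.exit (f := Prod.snd) nn_snd (c := 2 * c) (d := 2 * d)
    (by omega) hu hv
  refine ⟨z, w, hzw.mono ?_, hz, hw⟩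
  rintro t ⟨⟨h1, h2⟩, h3, h4⟩
  exact ⟨h1, by rw [mem_rc]; exact ⟨h2.1, h2.2, h3, h4⟩⟩

/-- A crossing of the window which avoids the gap meets the upper or the lower arm of the gap. -/
theorem gap_meet {S G : Set (ℤ × ℤ)} {a b c d cN dN cS dS x y r : ℤ} {p p' uN vN uS vS : ℤ × ℤ}
    (hcd : c ≤ d) (hp : NC (S ∩ (rc a b c d ∩ G)) p p') (hpa : p.1 = 2 * a) (hpb : p'.1 = 2 * b)
    (hG : ∀ z ∈ G, z ∉ gp x y r)
    (hN : NC (S ∩ rc a b cN dN) uN vN) (huN : uN ∈ gp x y r) (hvN : 2 * d ≤ vN.2)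
    (hS : NC (S ∩ rc a b cS dS) uS vS) (huS : uS ∈ gp x y r) (hvS : vS.2 ≤ 2 * c)
    (hga : a ≤ x) (hgb : x + r ≤ b) :
    (∃ z, NC (S ∩ (rc a b c d ∩ G)) p z ∧ NC (S ∩ rc a b cN dN) uN z) ∨
    (∃ z, NC (S ∩ (rc a b c d ∩ G)) p z ∧ NC (S ∩ rc a b cS dS) uS z) := by
  set T : Set (ℤ × ℤ) := ({z | NC (S ∩ rc a b cN dN) uN z} ∪ gp x y r) ∪
    {z | NC (S ∩ rc a b cS dS) uS z} with hT
  have c1 : Conn T uN vN := hN.cluster.conn.mono (fun z hz => Or.inl (Or.inl hz))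
  have c2 : Conn T uS uN := (conn_rc huS huN).mono (fun z hz => Or.inl (Or.inr hz))
  have c3 : Conn T uS vS := hS.cluster.conn.mono (fun z hz => Or.inr hz)
  have c4 : Conn T vS vN := (c3.symm.trans c2).trans c1
  have hf2 : ∀ u v : ℤ × ℤ, Adj u v → v.2 ≤ u.2 + 1 := by
    intro u v huv
    rw [adj_iff] at huv
    omega
  have hTs : ∀ z ∈ T, 2 * a ≤ z.1 ∧ z.1 ≤ 2 * b := by
    rintro z ((hz | hz) | hz)
    · have := hz.right_mem.2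
      rw [mem_rc] at this
      omega
    · unfold gp at hz
      rw [mem_rc] at hz
      omega
    · have := hz.right_mem.2
      rw [mem_rc] at this
      omega
  obtain ⟨z, w, hz, hw, hzw⟩ := Conn.exit (f := fun u => u.2) hf2 (c := 2 * c) (d := 2 * d)
    (by omega) c4 hvS hvN
  obtain ⟨v, hv1, hv2⟩ := cross (A := {z | NC (S ∩ (rc a b c d ∩ G)) p z})
    (B := T ∩ {u | 2 * c ≤ u.2 ∧ u.2 ≤ 2 * d}) (a := 2 * a) (b := 2 * b) (c := 2 * c)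
    (d := 2 * d)
    (by
      intro u hu
      have := hu.right_mem.2.1
      rw [mem_rc] at this
      exact this)
    (by
      rintro u ⟨hu1, hu2, hu3⟩
      have := hTs u hu1
      exact ⟨this.1, this.2, hu2, hu3⟩)
    hp.cluster.conn hpa hpb hzw hz hw
  rcases hv2.1 with (h | h) | h
  · exact Or.inl ⟨v, hv1, h⟩
  · exact absurd h (hG v hv1.right_mem.2.2)
  · exact Or.inr ⟨v, hv1, h⟩

/-- Deterministic part of (L1). -/
theorem L1det {S : Set (ℤ × ℤ)} {a b c d x r y1 y2 c1 t1 b1 e1 c2 t2 b2 e2 : ℤ} (hcd : c ≤ d)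
    (hga : a ≤ x) (hgb : x + r ≤ b) (ht1 : d ≤ t1) (hb1 : b1 ≤ c) (ht2 : d ≤ t2) (hb2 : b2 ≤ c)
    (h1 : y1 + r ≤ t2) (h2 : b1 ≤ y2)
    (hA : Av (gp x y1 r ∪ gp x y2 r) a b c d S) (hN1 : NArm a b c1 t1 x y1 r S)
    (hS1 : SArm a b b1 e1 x y1 r S) (hN2 : NArm a b c2 t2 x y2 r S)
    (hS2 : SArm a b b2 e2 x y2 r S) :
    (BTc a b (y1 + r) t2 S ∨ BTc a b b1 y2 S) ∨ (BTc a b b2 t1 S ∨ BTc a b b1 t2 S) := by
  obtain ⟨p, p', hp, hpa, hpb⟩ := hA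
  obtain ⟨uN1, vN1, n1, n1a, n1b⟩ := hN1
  obtain ⟨uS1, vS1, s1, s1a, s1b⟩ := hS1
  obtain ⟨uN2, vN2, n2, n2a, n2b⟩ := hN2
  obtain ⟨uS2, vS2, s2, s2a, s2b⟩ := hS2
  have key1 := gap_meet (x := x) (y := y1) (r := r) hcd hp hpa hpb (fun z hz hz' => hz (Or.inl hz'))
    n1 n1a (by omega) s1 s1a (by omega) hga hgb
  have key2 := gap_meet (x := x) (y := y2) (r := r) hcd hp hpa hpb (fun z hz hz' => hz (Or.inr hz'))
    n2 n2a (by omega) s2 s2a (by omega) hga hgb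
  have sub : S ∩ (rc a b c d ∩ (gp x y1 r ∪ gp x y2 r)ᶜ) ⊆ S ∩ strip a b :=
    fun z hz => ⟨hz.1, rc_sub_strip _ _ _ _ hz.2.1⟩
  have sub' : ∀ c d, S ∩ rc a b c d ⊆ S ∩ strip a b :=
    fun c d z hz => ⟨hz.1, rc_sub_strip _ _ _ _ hz.2⟩
  have g1 : uN1.2 ≤ 2 * (y1 + r) := by
    have := n1a; unfold gp at this; rw [mem_rc] at this; omega
  have g2 : 2 * y2 ≤ uS2.2 := by
    have := s2a; unfold gp at this; rw [mem_rc] at this; omega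
  rcases key1 with ⟨z, hz, hz'⟩ | ⟨z, hz, hz'⟩ <;> rcases key2 with ⟨w, hw, hw'⟩ | ⟨w, hw, hw'⟩
  · -- N1, N2
    refine Or.inl (Or.inl (btc_of (by omega) (u := uN1) (v := vN2) ?_ g1 (by omega)))
    exact ((hz'.mono (sub' _ _)).trans ((hz.mono sub).symm)).trans
      ((hw.mono sub).trans ((hw'.mono (sub' _ _)).symm.trans (n2.mono (sub' _ _))))
  · -- N1, S2
    refine Or.inr (Or.inl (btc_of (by omega) (u := vS2) (v := vN1) ?_ (by omega) (by omega)))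
    exact (((s2.mono (sub' _ _)).symm.trans (hw'.mono (sub' _ _))).trans (hw.mono sub).symm).trans
      ((hz.mono sub).trans ((hz'.mono (sub' _ _)).symm.trans (n1.mono (sub' _ _))))
  · -- S1, N2
    refine Or.inr (Or.inr (btc_of (by omega) (u := vS1) (v := vN2) ?_ (by omega) (by omega)))
    exact (((s1.mono (sub' _ _)).symm.trans (hz'.mono (sub' _ _))).trans (hz.mono sub).symm).trans
      ((hw.mono sub).trans ((hw'.mono (sub' _ _)).symm.trans (n2.mono (sub' _ _))))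
  · -- S1, S2
    refine Or.inl (Or.inr (btc_of (by omega) (u := vS1) (v := uS2) ?_ (by omega) g2))
    exact (((s1.mono (sub' _ _)).symm.trans (hz'.mono (sub' _ _))).trans (hz.mono sub).symm).trans
      ((hw.mono sub).trans (hw'.mono (sub' _ _)).symm)

/-- The vertical range of a path. -/
theorem range {T : Set (ℤ × ℤ)} {u v : ℤ × ℤ} (h : NC T u v) :
    ∃ p q : ℤ × ℤ, NC (T ∩ {z | p.2 ≤ z.2 ∧ z.2 ≤ q.2}) u v ∧
      NC (T ∩ {z | p.2 ≤ z.2 ∧ z.2 ≤ q.2}) u p ∧ NC (T ∩ {z | p.2 ≤ z.2 ∧ z.2 ≤ q.2}) u q := by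
  refine NC.ind (fun v => ∃ p q : ℤ × ℤ, NC (T ∩ {z | p.2 ≤ z.2 ∧ z.2 ≤ q.2}) u v ∧
      NC (T ∩ {z | p.2 ≤ z.2 ∧ z.2 ≤ q.2}) u p ∧ NC (T ∩ {z | p.2 ≤ z.2 ∧ z.2 ≤ q.2}) u q)
    ?_ ?_ h
  · have : NC (T ∩ {z | u.2 ≤ z.2 ∧ z.2 ≤ u.2}) u u := NC.refl ⟨h.1, le_rfl, le_rfl⟩
    exact ⟨u, u, this, this, this⟩
  · rintro w w' _ hww hw' ⟨p, q, h1, h2, h3⟩
    have hpq : p.2 ≤ q.2 := h2.right_mem.2.2
    rcases lt_or_ge w'.2 p.2 with h4 | h4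
    · have sub : T ∩ {z | p.2 ≤ z.2 ∧ z.2 ≤ q.2} ⊆ T ∩ {z | w'.2 ≤ z.2 ∧ z.2 ≤ q.2} :=
        fun z hz => ⟨hz.1, h4.le.trans hz.2.1, hz.2.2⟩
      have h5 : NC (T ∩ {z | w'.2 ≤ z.2 ∧ z.2 ≤ q.2}) u w' :=
        (h1.mono sub).tail hww ⟨hw', le_rfl, h4.le.trans hpq⟩
      exact ⟨w', q, h5, h5, h3.mono sub⟩
    · rcases lt_or_ge q.2 w'.2 with h6 | h6
      · have sub : T ∩ {z | p.2 ≤ z.2 ∧ z.2 ≤ q.2} ⊆ T ∩ {z | p.2 ≤ z.2 ∧ z.2 ≤ w'.2} :=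
          fun z hz => ⟨hz.1, hz.2.1, hz.2.2.trans h6.le⟩
        have h5 : NC (T ∩ {z | p.2 ≤ z.2 ∧ z.2 ≤ w'.2}) u w' :=
          (h1.mono sub).tail hww ⟨hw', h4, le_rfl⟩
        exact ⟨p, w', h5, h2.mono sub, h5⟩
      · exact ⟨p, q, h1.tail hww ⟨hw', h4, h6⟩, h2, h3⟩

/-- Deterministic part of (L2): a crossing of the last strip `[B - V, B]` of `[0, B] × [0, W]` is
tall, or avoids the two gaps of one of the windows, or visits a gap. -/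
theorem L2det {S : Set (ℤ × ℤ)} {B W V k E H x r α₁ α₂ : ℤ} (hV : 0 ≤ V) (hVB : V ≤ B)
    (hk : 0 < k) (hE : 0 ≤ E) (hH : H = E + 2 * k) (h : LRc 0 B 0 W S) :
    ∃ i : ℕ, (i : ℤ) * k ≤ W ∧
      (BTc (B - V) B (i * k + k) (i * k + k + E) S ∨
        Av (gp (B - V + x) (i * k + α₁) r ∪ gp (B - V + x) (i * k + α₂) r) (B - V) B (i * k)
          (i * k + H) S ∨
        WArm 0 B 0 W (B - V + x) (i * k + α₁) r S ∨
        WArm 0 B 0 W (B - V + x) (i * k + α₂) r S) := by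
  obtain ⟨o, o', ho, hoa, hob⟩ := h
  obtain ⟨u, v, hu, hv, huv, hou, hov⟩ := ho.exit (f := Prod.fst) nn_fst (c := 2 * (B - V))
    (d := 2 * B) (by omega) (by omega) (by omega)
  obtain ⟨p, q, h1, h2, h3⟩ := range huv
  have hp := h2.right_mem
  have hq := h3.right_mem
  have hp0 : 0 ≤ p.2 ∧ p.2 ≤ 2 * W := by
    have := hp.1.1.2; rw [mem_rc] at this; omega
  obtain ⟨i, hi⟩ : ∃ i : ℕ, (i : ℤ) = p.2 / (2 * k) :=
    ⟨(p.2 / (2 * k)).toNat, Int.toNat_of_nonneg (Int.ediv_nonneg hp0.1 (by omega))⟩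
  have hi1 : 2 * ((i : ℤ) * k) ≤ p.2 := by
    have := Int.ediv_mul_le p.2 (show (2 * k) ≠ 0 by omega)
    rw [← hi] at this
    linarith
  have hi2 : p.2 < 2 * ((i : ℤ) * k) + 2 * k := by
    have := Int.lt_ediv_add_one_mul_self p.2 (show 0 < 2 * k by omega)
    rw [← hi] at this
    linarith
  obtain ⟨Y, hY⟩ : ∃ Y : ℤ, Y = (i : ℤ) * k := ⟨_, rfl⟩
  refine ⟨i, by rw [← hY] at hi1 ⊢; omega, ?_⟩
  rw [← hY] at hi1 hi2 ⊢
  have strp : ∀ z ∈ (S ∩ rc 0 B 0 W) ∩ {w : ℤ × ℤ | 2 * (B - V) ≤ w.1 ∧ w.1 ≤ 2 * B} ∩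
      {z : ℤ × ℤ | p.2 ≤ z.2 ∧ z.2 ≤ q.2}, z ∈ S ∩ strip (B - V) B := by
    rintro z ⟨⟨⟨hz1, _⟩, hz2⟩, _⟩
    exact ⟨hz1, hz2⟩
  rcases le_or_gt (2 * (E + k)) (q.2 - p.2) with hlong | hshort
  · left
    -- tall
    have hpq := (h2.symm.trans h3).mono strp
    exact btc_of (c := Y + k) (d := Y + k + E) (by omega) hpq (by omega) (by omega)
  · right
    set T := (S ∩ rc 0 B 0 W) ∩ {w : ℤ × ℤ | 2 * (B - V) ≤ w.1 ∧ w.1 ≤ 2 * B} ∩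
      {z : ℤ × ℤ | p.2 ≤ z.2 ∧ z.2 ≤ q.2} with hT
    have Tw : ∀ z ∈ T, z ∈ S ∧ z ∈ rc (B - V) B Y (Y + H) := by
      rintro z ⟨⟨⟨hz1, _⟩, hz2, hz3⟩, hz4, hz5⟩
      refine ⟨hz1, ?_⟩
      rw [mem_rc]
      exact ⟨hz2, hz3, by omega, by omega⟩
    have Ts : T ⊆ S ∩ rc 0 B 0 W := by
      rintro z ⟨⟨hz, _⟩, _⟩
      exact hz
    have arm : ∀ y, (∃ z, NC T u z ∧ z ∈ gp (B - V + x) y r) → WArm 0 B 0 W (B - V + x) y r S := by
      rintro y ⟨z, hz, hzg⟩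
      exact ⟨z, o, ((hou.trans (hz.mono Ts)).symm), hzg, hoa⟩
    by_cases g1 : ∃ z, NC T u z ∧ z ∈ gp (B - V + x) (Y + α₁) r
    · exact Or.inr (Or.inl (arm _ g1))
    by_cases g2 : ∃ z, NC T u z ∧ z ∈ gp (B - V + x) (Y + α₂) r
    · exact Or.inr (Or.inr (arm _ g2))
    refine Or.inl ⟨u, v, h1.cluster.mono ?_, hu, hv⟩
    intro z hz
    have hzT : z ∈ T := NC.right_mem hz
    refine ⟨(Tw z hzT).1, (Tw z hzT).2, ?_⟩
    rintro (h5 | h5)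
    · exact g1 ⟨z, hz, h5⟩
    · exact g2 ⟨z, hz, h5⟩

/-- Deterministic part of (L4): two opposite arms of a gap and a circuit around it. -/
theorem L4det {S : Set (ℤ × ℤ)} {W B x y r t : ℤ} (ht : 0 < t) (hr : 0 ≤ r) (hrt : r ≤ t)
    (hx : 0 ≤ x) (hxr : x + r ≤ W) (hy : y + r + 2 * t ≤ B)
    (hN : NArm 0 W 0 B x y r S) (hS : SArm 0 W (2 * y + r - B) (2 * y + r) x y r S)
    (hA : Ann x y t S) : BTc (-(2 * t)) (W + 2 * t) (2 * y + r - B) B S := by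
  obtain ⟨o, _, hsep⟩ := hA.cluster ht
  obtain ⟨uN, vN, n1, n1a, n1b⟩ := hN
  obtain ⟨uS, vS, s1, s1a, s1b⟩ := hS
  unfold gp at n1a s1a
  rw [mem_rc] at n1a s1a
  obtain ⟨w, hw1, hw2⟩ := hsep _ uN vN n1.cluster.conn
    (by rw [mem_rc]; omega) (by right; right; right; omega)
  obtain ⟨v, hv1, hv2⟩ := hsep _ uS vS s1.cluster.conn
    (by rw [mem_rc]; omega) (by right; right; left; omega)
  have k0 : S ∩ annR x y t ⊆ S ∩ strip (-(2 * t)) (W + 2 * t) := by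
    intro z hz
    have := annR_sub x y t hz.2
    rw [mem_rc] at this
    exact ⟨hz.1, by omega, by omega⟩
  have k1 : ∀ c d, S ∩ rc 0 W c d ⊆ S ∩ strip (-(2 * t)) (W + 2 * t) := by
    intro c d z hz
    have := hz.2
    rw [mem_rc] at this
    exact ⟨hz.1, by omega, by omega⟩
  have a1 : NC (S ∩ strip (-(2 * t)) (W + 2 * t)) w vN :=
    (hw1.symm.trans n1).mono (k1 _ _)
  have a2 : NC (S ∩ strip (-(2 * t)) (W + 2 * t)) v vS :=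
    (hv1.symm.trans s1).mono (k1 _ _)
  have a3 : NC (S ∩ strip (-(2 * t)) (W + 2 * t)) w v := (hw2.symm.trans hv2).mono k0
  exact btc_of (by omega) ((a2.symm.trans a3.symm).trans a1) (by omega) (by omega)

end Vale.Agent.P159.TM.H627.Rsw
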