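import Vale.Agent.P159.TM.H627.RswA

/-!
# Abstract RSW from easy crossings, II: symmetries of arms, (L1), gluing
-/

namespace Vale.Agent.P159.TM.H627.Rsw

open Vale.Agent.P145.FB

section sym

variable (S : Set (ℤ × ℤ))

theorem NArm_shift (a b c d x y r p q : ℤ) :
    NArm a b c d x y r {z | (z.1 + 2 * p, z.2 + 2 * q) ∈ S} ↔
      NArm (a + p) (b + p) (c + q) (d + q) (x + p) (y + q) r S := by
  refine ex_iff (T := fun z => (z.1 + 2 * p, z.2 + 2 * q))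
    (T' := fun z => (z.1 + 2 * (-p), z.2 + 2 * (-q))) ?_ (nn_shift p q) (nn_shift (-p) (-q)) ?_ ?_ S
  · rintro ⟨x, y⟩; ext <;> dsimp only <;> ring
  · rintro ⟨x, y⟩; simp only [rc, Set.mem_ofPred_eq]; constructor <;> intro h <;> omega
  · rintro ⟨x, y⟩ ⟨x', y'⟩; simp only [gp, rc, Set.mem_ofPred_eq]; omega

theorem SArm_shift (a b c d x y r p q : ℤ) :
    SArm a b c d x y r {z | (z.1 + 2 * p, z.2 + 2 * q) ∈ S} ↔
      SArm (a + p) (b + p) (c + q) (d + q) (x + p) (y + q) r S := by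
  refine ex_iff (T := fun z => (z.1 + 2 * p, z.2 + 2 * q))
    (T' := fun z => (z.1 + 2 * (-p), z.2 + 2 * (-q))) ?_ (nn_shift p q) (nn_shift (-p) (-q)) ?_ ?_ S
  · rintro ⟨x, y⟩; ext <;> dsimp only <;> ring
  · rintro ⟨x, y⟩; simp only [rc, Set.mem_ofPred_eq]; constructor <;> intro h <;> omega
  · rintro ⟨x, y⟩ ⟨x', y'⟩; simp only [gp, rc, Set.mem_ofPred_eq]; omega

theorem NArm_refly (a b c d x y r : ℤ) :
    NArm a b c d x y r {z | (z.1, -z.2) ∈ S} ↔ SArm a b (-d) (-c) x (-y - r) r S := by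
  refine ex_iff (T := fun z => (z.1, -z.2)) (T' := fun z => (z.1, -z.2)) ?_ nn_refly nn_refly ?_ ?_ S
  · rintro ⟨x, y⟩; ext <;> dsimp only <;> ring
  · rintro ⟨x, y⟩; simp only [rc, Set.mem_ofPred_eq]; constructor <;> intro h <;> omega
  · rintro ⟨x, y⟩ ⟨x', y'⟩; simp only [gp, rc, Set.mem_ofPred_eq]; omega

theorem WArm_swap (a b c d x y r : ℤ) :
    WArm a b c d x y r {z | (z.2, z.1) ∈ S} ↔ SArm c d a b y x r S := by
  refine ex_iff (T := fun z => (z.2, z.1)) (T' := fun z => (z.2, z.1)) ?_ nn_swap nn_swap ?_ ?_ S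
  · rintro ⟨x, y⟩; rfl
  · rintro ⟨x, y⟩; simp only [rc, Set.mem_ofPred_eq]; constructor <;> intro h <;> omega
  · rintro ⟨x, y⟩ ⟨x', y'⟩; simp only [gp, rc, Set.mem_ofPred_eq]; omega

end sym

variable (P : PP)

theorem p_NArm_shift (a b c d x y r p q : ℤ) :
    P.p (NArm (a + p) (b + p) (c + q) (d + q) (x + p) (y + q) r) = P.p (NArm a b c d x y r) := by
  rw [← P.shift p q _ (IL_NArm a b c d x y r)]
  congr 1
  funext S
  exact propext (NArm_shift S a b c d x y r p q).symm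

theorem p_SArm_shift (a b c d x y r p q : ℤ) :
    P.p (SArm (a + p) (b + p) (c + q) (d + q) (x + p) (y + q) r) = P.p (SArm a b c d x y r) := by
  rw [← P.shift p q _ (IL_SArm a b c d x y r)]
  congr 1
  funext S
  exact propext (SArm_shift S a b c d x y r p q).symm

theorem p_SArm (a b c d x y r : ℤ) :
    P.p (SArm a b (-d) (-c) x (-y - r) r) = P.p (NArm a b c d x y r) := by
  rw [← P.refly _ (IL_NArm a b c d x y r)]
  congr 1
  funext S
  exact propext (NArm_refly S a b c d x y r).symm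

theorem p_WArm (a b c d x y r : ℤ) :
    P.p (SArm c d a b y x r) = P.p (WArm a b c d x y r) := by
  rw [← P.swap _ (IL_WArm a b c d x y r)]
  congr 1
  funext S
  exact propext (WArm_swap S a b c d x y r).symm

/-- The upper arm of a gap of the strip. -/
theorem armN {W B r x y : ℤ} (X Y : ℤ) :
    P.p (NArm X (X + W) (Y - y) (Y - y + B) (X + x) Y r) = P.p (NArm 0 W 0 B x y r) := by
  rw [← p_NArm_shift P 0 W 0 B x y r X (Y - y)]
  congr 2 <;> ring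

/-- The lower arm of a gap of the strip. -/
theorem armS {W B r x y : ℤ} (X Y : ℤ) :
    P.p (SArm X (X + W) (Y + r + y - B) (Y + r + y) (X + x) Y r) = P.p (NArm 0 W 0 B x y r) := by
  rw [← p_SArm P 0 W 0 B x y r, ← p_SArm_shift P 0 W (-B) (-0) x (-y - r) r X (Y + r + y)]
  congr 2 <;> ring

/-- **(L1)** Crossings of the window visit one of its two gaps, up to long crossings. -/
theorem L1 {c : ℝ} (hc : 0 ≤ c) {W B r x y X Y1 Y2 Y H E : ℤ}
    (hx : 0 ≤ x) (hxr : x + r ≤ W) (hr : 0 ≤ r) (hH : 0 ≤ H) (hE : 0 ≤ E)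
    (h1 : Y2 + r + y - B ≤ Y) (h2 : Y + H ≤ Y1 - y + B) (h12 : Y1 ≤ Y2)
    (e1 : Y1 + r + E ≤ Y2 - y + B) (e3 : Y2 + r + y - B + E ≤ Y1 - y + B)
    (harm : c ≤ P.p (NArm 0 W 0 B x y r)) :
    P.p (Av (gp (X + x) Y1 r ∪ gp (X + x) Y2 r) X (X + W) Y (Y + H)) * c ^ 4 ≤ 4 * P.L E W := by
  have bt : ∀ u v : ℤ, E ≤ v - u → P.p (BTc X (X + W) u v) ≤ P.L E W := by
    intro u v huv
    rw [P.B_eq']
    exact P.L_mono geo hE huv (by omega)
  set Q := P.p (Av (gp (X + x) Y1 r ∪ gp (X + x) Y2 r) X (X + W) Y (Y + H)) with hQ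
  have n1 : c ≤ P.p (NArm X (X + W) (Y1 - y) (Y1 - y + B) (X + x) Y1 r) := by rwa [armN]
  have n2 : c ≤ P.p (NArm X (X + W) (Y2 - y) (Y2 - y + B) (X + x) Y2 r) := by rwa [armN]
  have s1 : c ≤ P.p (SArm X (X + W) (Y1 + r + y - B) (Y1 + r + y) (X + x) Y1 r) := by rwa [armS]
  have s2 : c ≤ P.p (SArm X (X + W) (Y2 + r + y - B) (Y2 + r + y) (X + x) Y2 r) := by rwa [armS]
  have f1 := P.fkg2 (T := fun S => NArm X (X + W) (Y1 - y) (Y1 - y + B) (X + x) Y1 r S ∧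
    SArm X (X + W) (Y1 + r + y - B) (Y1 + r + y) (X + x) Y1 r S) (IL_NArm _ _ _ _ _ _ _)
    (IL_SArm _ _ _ _ _ _ _) (fun S h h' => ⟨h, h'⟩) hc hc n1 s1
  have f2 := P.fkg2 (T := fun S => NArm X (X + W) (Y2 - y) (Y2 - y + B) (X + x) Y2 r S ∧
    SArm X (X + W) (Y2 + r + y - B) (Y2 + r + y) (X + x) Y2 r S) (IL_NArm _ _ _ _ _ _ _)
    (IL_SArm _ _ _ _ _ _ _) (fun S h h' => ⟨h, h'⟩) hc hc n2 s2
  have key := P.fkg3 (T := fun S =>
    (BTc X (X + W) (Y1 + r) (Y2 - y + B) S ∨ BTc X (X + W) (Y1 + r + y - B) Y2 S) ∨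
    (BTc X (X + W) (Y2 + r + y - B) (Y1 - y + B) S ∨
      BTc X (X + W) (Y1 + r + y - B) (Y2 - y + B) S))
    (IL_Av (gp (X + x) Y1 r ∪ gp (X + x) Y2 r) X (X + W) Y (Y + H))
    ((IL_NArm _ _ _ _ _ _ _).and (IL_SArm _ _ _ _ _ _ _))
    ((IL_NArm _ _ _ _ _ _ _).and (IL_SArm _ _ _ _ _ _ _))
    (fun S hA g1 g2 => L1det (by omega) (by omega) (by omega) (by omega) (by omega) (by omega)
      (by omega) (by omega) (by omega) hA g1.1 g1.2 g2.1 g2.2)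
    (P.nonneg _) (mul_nonneg hc hc) (mul_nonneg hc hc) le_rfl f1 f2
  have u1 := P.or_le (fun S => BTc X (X + W) (Y1 + r) (Y2 - y + B) S ∨
    BTc X (X + W) (Y1 + r + y - B) Y2 S) (fun S => BTc X (X + W) (Y2 + r + y - B) (Y1 - y + B) S ∨
      BTc X (X + W) (Y1 + r + y - B) (Y2 - y + B) S)
  have u2 := P.or_le (BTc X (X + W) (Y1 + r) (Y2 - y + B)) (BTc X (X + W) (Y1 + r + y - B) Y2)
  have u3 := P.or_le (BTc X (X + W) (Y2 + r + y - B) (Y1 - y + B))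
    (BTc X (X + W) (Y1 + r + y - B) (Y2 - y + B))
  have b1 := bt (Y1 + r) (Y2 - y + B) (by omega)
  have b2 := bt (Y1 + r + y - B) Y2 (by omega)
  have b3 := bt (Y2 + r + y - B) (Y1 - y + B) (by omega)
  have b4 := bt (Y1 + r + y - B) (Y2 - y + B) (by omega)
  calc Q * c ^ 4 = Q * (c * c) * (c * c) := by ring
    _ ≤ _ := key
    _ ≤ 4 * P.L E W := by linarith

/-- Straight lines. -/
theorem L_line {β : ℝ} (hβ : 0 ≤ β) (h1 : β ≤ P.L 1 0) (j : ℕ) : β ^ (j + 1) ≤ P.L (j + 1 : ℕ) 0 := by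
  induction j with
  | zero => simpa using h1
  | succ j ih =>
    have := P.fkg2 (T := LRc 0 ((j + 1 + 1 : ℕ) : ℤ) 0 0) (IL_LRc 0 ((j + 1 : ℕ) : ℤ) 0 0)
      (IL_LRc ((j + 1 : ℕ) : ℤ) ((j + 1 + 1 : ℕ) : ℤ) 0 0) ?_ (pow_nonneg hβ (j + 1)) hβ ih
      (by rw [P.L_eq']; simpa using h1)
    · rw [pow_succ]; exact this
    · rintro S ⟨x, x', hx, hxa, hxb⟩ ⟨y, y', hy, hya, hyb⟩
      have e1 : x' = y := by
        have m1 := hx.right_mem.2
        have m2 := hy.left_mem.2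
        rw [mem_rc] at m1 m2
        exact Prod.ext (by omega) (by omega)
      subst e1
      exact ⟨x, y', (hx.mono (Set.inter_subset_inter_right S
        (rc_mono le_rfl (by push_cast; omega) le_rfl le_rfl))).trans
        (hy.mono (Set.inter_subset_inter_right S
        (rc_mono (by push_cast; omega) le_rfl le_rfl le_rfl))), hxa, hyb⟩

/-- Crossings of a rectangle of bounded width. -/
theorem L_small {β : ℝ} (hβ : 0 ≤ β) (hβ1 : β ≤ 1) (h1 : β ≤ P.L 1 0) {w h : ℤ} {K : ℕ}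
    (hw : 0 ≤ w) (hwK : w ≤ K) (hh : 0 ≤ h) : β ^ (K + 1) ≤ P.L w h :=
  (L_line P hβ h1 K).trans (P.L_mono geo hw (by push_cast; omega) hh)

/-- Gluing with an overlap of width `v`. -/
theorem L_glue {c0 : ℝ} (h0 : 0 ≤ c0) {w w' h v : ℤ} (hh : 0 ≤ h) (hv0 : 0 ≤ v)
    (hsq : c0 ≤ P.L h v) (hw : v ≤ w) (hw' : v ≤ w') {a b : ℝ} (ha : 0 ≤ a) (hb : 0 ≤ b)
    (hwa : a ≤ P.L w h) (hwb : b ≤ P.L w' h) : a * c0 * b ≤ P.L (w + w' - v) h := by
  refine P.fkg3 (IL_LRc 0 w 0 h) (IL_BTc (w - v) w 0 h) (IL_LRc (w - v) (w + w' - v) 0 h)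
    (fun S h1 h2 h3 => geo.chain 0 (w - v) w (w + w' - v) 0 h S (by omega) (by omega) (by omega)
      hh h1 h2 h3) ha h0 hb ?_ ?_ ?_
  · rw [P.L_eq']; simpa using hwa
  · rw [P.B_eq']; simpa using hsq
  · rw [P.L_eq']
    have e : w + w' - v - (w - v) = w' := by ring
    rw [e]; simpa using hwb

/-- Iterated gluing. -/
theorem L_glue_iter {c0 : ℝ} (h0 : 0 ≤ c0) {h v k : ℤ} (hh : 0 ≤ h) (hv0 : 0 ≤ v) (hk : 0 ≤ k)
    (hsq : c0 ≤ P.L h v) {a : ℝ} (ha : 0 ≤ a) (hka : a ≤ P.L (v + k) h) (j : ℕ) :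
    a * (c0 * a) ^ j ≤ P.L (v + (j + 1 : ℕ) * k) h := by
  induction j with
  | zero => simpa using hka
  | succ j ih =>
    have h1 : 0 ≤ a * (c0 * a) ^ j := mul_nonneg ha (pow_nonneg (mul_nonneg h0 ha) _)
    have h2 : 0 ≤ ((j + 1 : ℕ) : ℤ) * k := mul_nonneg (Int.natCast_nonneg _) hk
    have := L_glue P h0 hh hv0 hsq (w := v + (j + 1 : ℕ) * k) (w' := v + k) (by linarith)
      (by linarith) h1 ha ih hka
    have e : v + ((j + 1 : ℕ) : ℤ) * k + (v + k) - v = v + ((j + 1 + 1 : ℕ) : ℤ) * k := by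
      push_cast; ring
    rw [e] at this
    calc a * (c0 * a) ^ (j + 1) = a * (c0 * a) ^ j * c0 * a := by ring
      _ ≤ _ := this

/-- Union bound. -/
theorem union_le (Q : ℕ → Set (ℤ × ℤ) → Prop) {δ : ℝ} (M : ℕ) (h : ∀ i ≤ M, P.p (Q i) ≤ δ) :
    P.p (fun S => ∃ i ≤ M, Q i S) ≤ (M + 1) * δ := by
  induction M with
  | zero =>
    refine (P.mono _ (Q 0) ?_).trans ?_
    · rintro S ⟨i, hi, hS⟩
      obtain rfl : i = 0 := by omega
      exact hS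
    · simpa using h 0 le_rfl
  | succ M ih =>
    have h1 := ih (fun i hi => h i (by omega))
    have h2 := h (M + 1) le_rfl
    refine (P.mono _ (fun S => (∃ i ≤ M, Q i S) ∨ Q (M + 1) S) ?_).trans ((P.or_le _ _).trans ?_)
    · rintro S ⟨i, hi, hS⟩
      rcases Nat.lt_or_ge M i with h3 | h3
      · obtain rfl : i = M + 1 := by omega
        exact Or.inr hS
      · exact Or.inl ⟨i, h3, hS⟩
    · push_cast
      linarith

/-- **(L4)** -/
theorem L4 {c cA : ℝ} (hc : 0 ≤ c) (hcA : 0 ≤ cA) {W B x y r t : ℤ} (ht : 0 < t) (hr : 0 ≤ r)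
    (hrt : r ≤ t) (hx : 0 ≤ x) (hxr : x + r ≤ W) (hy : y + r + 2 * t ≤ B)
    (harm : c ≤ P.p (NArm 0 W 0 B x y r)) (hA : cA ≤ P.p (Ann x y t)) :
    c * c * cA ≤ P.L (2 * B - 2 * y - r) (W + 4 * t) := by
  have s1 : c ≤ P.p (SArm 0 W (2 * y + r - B) (2 * y + r) x y r) := by
    have := armS P (W := W) (B := B) (r := r) (x := x) (y := y) 0 y
    have e : P.p (SArm 0 W (2 * y + r - B) (2 * y + r) x y r) = P.p (NArm 0 W 0 B x y r) := by
      rw [← this]; congr 2 <;> ring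
    rwa [e]
  have := P.fkg3 (IL_NArm _ _ _ _ _ _ _) (IL_SArm _ _ _ _ _ _ _) (IL_Ann _ _ _)
    (fun S h1 h2 h3 => L4det ht hr hrt hx hxr hy h1 h2 h3) hc hc hcA harm s1 hA
  rw [P.B_eq'] at this
  have e1 : B - (2 * y + r - B) = 2 * B - 2 * y - r := by ring
  have e2 : W + 2 * t - -(2 * t) = W + 4 * t := by ring
  rwa [e1, e2] at this

end Vale.Agent.P159.TM.H627.Rsw
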