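import Vale.Agent.P159.TM.H627.RswB

/-!
# Abstract RSW from easy crossings, III: arms at all scales
-/

namespace Vale.Agent.P159.TM.H627.Rsw

open Vale.Agent.P145.FB

/-- The room `B + B/20`. -/
def wd (B : ℤ) : ℤ := B + B / 20

/-- Some gap of size `r` near the bottom of `[0, wd B] × [0, B]` is joined to the top. -/
def ARM (P : PP) (c : ℝ) (B r : ℤ) : Prop :=
  ∃ x y : ℤ, 0 ≤ x ∧ x + r ≤ wd B ∧ 0 ≤ y ∧ 9 * (y + r) ≤ B ∧ c ≤ P.p (NArm 0 (wd B) 0 B x y r)

/-- The long crossing. -/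
noncomputable def Eps (P : PP) (B : ℤ) : ℝ := P.L (B + B / 4) (wd B)

variable {P : PP}

/-- **Step 0**: near-squares from easy crossings. -/
theorem step0 {p1 : ℝ} {t : ℤ} (ht : 40 ≤ t) (h : p1 ≤ P.L t (4 * t)) :
    p1 / 1000 ≤ P.L t (wd t) := by
  obtain ⟨k, hk⟩ : ∃ k : ℤ, k = t / 40 := ⟨_, rfl⟩
  have hk0 : 0 < k := by omega
  set δ := P.L t (wd t) with hδ
  have hδ0 : 0 ≤ δ := P.L_nonneg _ _
  have key : P.L t (4 * t) ≤ (((400 : ℕ) : ℝ) + 1) * (2 * δ) := by
    have hu := union_le P (fun (i : ℕ) S => BTc 0 t (i * k + k) (i * k + k + t) S ∨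
      LRc 0 t (i * k) (i * k + (t + 2 * k)) S) (δ := 2 * δ) 400 ?_
    · refine (P.mono _ _ ?_).trans hu
      rintro S ⟨u, v, huv, hu, hv⟩
      obtain ⟨p, q, h1, h2, h3⟩ := range huv
      have hp := h2.right_mem
      have hq := h3.right_mem
      have hp0 : 0 ≤ p.2 ∧ p.2 ≤ 2 * (4 * t) := by
        have := hp.1.2; rw [mem_rc] at this; omega
      obtain ⟨i, hi⟩ : ∃ i : ℕ, (i : ℤ) = p.2 / (2 * k) :=
        ⟨(p.2 / (2 * k)).toNat, Int.toNat_of_nonneg (Int.ediv_nonneg hp0.1 (by omega))⟩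
      have hi1 : 2 * ((i : ℤ) * k) ≤ p.2 := by
        have := Int.ediv_mul_le p.2 (show (2 * k) ≠ 0 by omega)
        rw [← hi] at this
        linarith
      have hi2 : p.2 < 2 * ((i : ℤ) * k) + 2 * k := by
        have := Int.lt_ediv_add_one_mul_self p.2 (show 0 < 2 * k by omega)
        rw [← hi] at this
        linarith
      have hi3 : i ≤ 400 := by
        have h5 : t < 80 * k := by omega
        have h6 : (i : ℤ) * k < 320 * k := by linarith [hp0.2]
        have := lt_of_mul_lt_mul_right h6 hk0.le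
        omega
      obtain ⟨Y, hY⟩ : ∃ Y : ℤ, Y = (i : ℤ) * k := ⟨_, rfl⟩
      refine ⟨i, hi3, ?_⟩
      rw [← hY] at hi1 hi2 ⊢
      rcases le_or_gt (2 * (t + k)) (q.2 - p.2) with hlong | hshort
      · left
        have hpq : NC (S ∩ strip 0 t) p q := (h2.symm.trans h3).mono (by
          rintro z ⟨⟨hz1, hz2⟩, _⟩
          rw [mem_rc] at hz2
          exact ⟨hz1, by omega, by omega⟩)
        exact btc_of (c := Y + k) (d := Y + k + t) (by omega) hpq (by omega) (by omega)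
      · right
        refine ⟨u, v, h1.mono ?_, hu, hv⟩
        rintro z ⟨⟨hz1, hz2⟩, hz3, hz4⟩
        rw [mem_rc] at hz2
        exact ⟨hz1, by rw [mem_rc]; omega⟩
    · intro i _
      refine (P.or_le _ _).trans ?_
      have a1 : P.p (BTc 0 t (i * k + k) (i * k + k + t)) ≤ δ := by
        rw [P.B_eq']
        have e : (i : ℤ) * k + k + t - (i * k + k) = t := by ring
        rw [e, hδ]
        exact P.L_mono geo (by omega) le_rfl (by unfold wd; omega)
      have a2 : P.p (LRc 0 t (i * k) (i * k + (t + 2 * k))) ≤ δ := by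
        rw [P.L_eq']
        have e : (i : ℤ) * k + (t + 2 * k) - i * k = t + 2 * k := by ring
        rw [e, hδ]
        exact P.L_mono geo (by omega) (by omega) (by unfold wd; omega)
      linarith
  push_cast at key
  linarith

/-- An arm to the left side with a gap near the right side, rotated. -/
theorem arm_of_w {c : ℝ} {B r X Y V : ℤ} (hr : 0 ≤ r) (hrW : r ≤ wd B) (hX : B - V ≤ X)
    (hXr : X + r ≤ B) (hV : 9 * V ≤ B)
    (h : c ≤ P.p (WArm 0 B 0 (wd B) X Y r)) : ARM P c B r := by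
  obtain ⟨x', hx'⟩ : ∃ x', x' = max 0 (min Y (wd B - r)) := ⟨_, rfl⟩
  refine ⟨x', B - X - r, by omega, by omega, by omega, by omega, ?_⟩
  have h1 : P.p (WArm 0 B 0 (wd B) X Y r) ≤ P.p (WArm 0 B 0 (wd B) X x' r) := by
    refine P.mono _ _ ?_
    rintro S ⟨u, v, huv, hu, hv⟩
    refine ⟨u, v, huv, ?_, hv⟩
    have h2 := huv.left_mem.2
    unfold gp at hu ⊢
    rw [mem_rc] at h2 hu ⊢
    omega
  refine (h.trans h1).trans (le_of_eq ?_)
  rw [← p_WArm]
  have h3 := p_SArm P 0 (wd B) 0 B x' (B - X - r) r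
  have h4 := p_SArm_shift P 0 (wd B) (-B) (-0) x' (-(B - X - r) - r) r 0 B
  rw [← h3, ← h4]
  congr 2 <;> ring

/-- **(L3)** -/
theorem L3 {p0 : ℝ} (h0 : 0 < p0) {B r : ℤ} (hr : 1 ≤ r) (hrB : 9 * r ≤ B) (hB : B < 2000 * r)
    (hsq : p0 ≤ P.L B (wd B)) : ARM P (p0 / 5000) B r := by
  have hW : r ≤ wd B := by unfold wd; omega
  by_contra hno
  have hall : ∀ Y, P.p (WArm 0 B 0 (wd B) (B - r) Y r) ≤ p0 / 5000 := by
    intro Y
    by_contra hlt
    push Not at hlt
    exact hno (arm_of_w (V := r) (by omega) hW le_rfl (by omega) hrB hlt.le)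
  have hu := union_le P (fun (i : ℕ) => WArm 0 B 0 (wd B) (B - r) (i * r) r) (δ := p0 / 5000) 2200
    (fun i _ => hall _)
  have h1 : p0 ≤ P.p (fun S => ∃ i ≤ 2200, WArm 0 B 0 (wd B) (B - r) ((i : ℕ) * r) r S) := by
    refine hsq.trans (P.mono _ _ ?_)
    rintro S ⟨u, v, huv, hu, hv⟩
    have hv2 := huv.right_mem.2
    rw [mem_rc] at hv2
    obtain ⟨i, hi⟩ : ∃ i : ℕ, (i : ℤ) = v.2 / (2 * r) :=
      ⟨(v.2 / (2 * r)).toNat, Int.toNat_of_nonneg (Int.ediv_nonneg (by omega) (by omega))⟩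
    have hi1 : 2 * ((i : ℤ) * r) ≤ v.2 := by
      have := Int.ediv_mul_le v.2 (show (2 * r) ≠ 0 by omega)
      rw [← hi] at this
      linarith
    have hi2 : v.2 < 2 * ((i : ℤ) * r) + 2 * r := by
      have := Int.lt_ediv_add_one_mul_self v.2 (show 0 < 2 * r by omega)
      rw [← hi] at this
      linarith
    have hi3 : i ≤ 2200 := by
      have h5 : wd B ≤ 2100 * r := by unfold wd; omega
      have h6 : (i : ℤ) * r < 2101 * r := by linarith [hv2.2.2.2]
      have := lt_of_mul_lt_mul_right h6 (by omega)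
      omega
    refine ⟨i, hi3, v, u, huv.symm, ?_, hu⟩
    unfold gp
    rw [mem_rc]
    obtain ⟨Y, hY⟩ : ∃ Y : ℤ, Y = (i : ℤ) * r := ⟨_, rfl⟩
    rw [← hY] at hi1 hi2 ⊢
    omega
  have h2 := h1.trans hu
  push_cast at h2
  linarith

/-- **(L2)** -/
theorem L2 {p0 : ℝ} (h0 : 0 < p0) (h01 : p0 ≤ 1) {B r : ℤ} (hr : 1 ≤ r) (hB : 2000 * r ≤ B)
    (hsq : p0 ≤ P.L B (wd B)) (harm : ARM P (p0 / 5000) (B / 10) r)
    (heps : Eps P (B / 10) ≤ (p0 / 5000) ^ 6) : ARM P (p0 / 5000) B r := by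
  obtain ⟨c, hc⟩ : ∃ c : ℝ, c = p0 / 5000 := ⟨_, rfl⟩
  rw [← hc] at harm heps ⊢
  have hc0 : 0 < c := by rw [hc]; positivity
  have hc1 : c ≤ 1 := by rw [hc]; linarith
  obtain ⟨s, hs⟩ : ∃ s : ℤ, s = B / 10 := ⟨_, rfl⟩
  rw [← hs] at harm heps
  obtain ⟨x, y, hx, hxr, hy, hyr, ha⟩ := harm
  obtain ⟨V, hV⟩ : ∃ V : ℤ, V = wd s := ⟨_, rfl⟩
  rw [← hV] at hxr ha
  have hVs : V = s + s / 20 := by rw [hV]; rfl
  obtain ⟨E, hE⟩ : ∃ E : ℤ, E = s + s / 4 := ⟨_, rfl⟩
  have hEps : P.L E V ≤ c ^ 6 := by rw [hE, hV]; exact heps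
  obtain ⟨k, hk⟩ : ∃ k : ℤ, k = s / 25 := ⟨_, rfl⟩
  have hs200 : 200 ≤ s := by omega
  have hk8 : 8 ≤ k := by omega
  by_contra hno
  have hw : ∀ Y, P.p (WArm 0 B 0 (wd B) (B - V + x) Y r) ≤ c := by
    intro Y
    by_contra hlt
    push Not at hlt
    refine hno (arm_of_w (V := V) (by omega) (by unfold wd; omega) (by omega) (by omega) (by omega)
      hlt.le)
  have hL0 : 0 ≤ P.L E V := P.L_nonneg _ _
  have hav : ∀ Y, P.p (Av (gp (B - V + x) (Y + (E + 2 * k + y - s)) r ∪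
      gp (B - V + x) (Y + (s - y - r)) r) (B - V) B Y (Y + (E + 2 * k))) ≤ 4 * c := by
    intro Y
    have := L1 P hc0.le (W := V) (B := s) (r := r) (x := x) (y := y) (X := B - V)
      (Y1 := Y + (E + 2 * k + y - s)) (Y2 := Y + (s - y - r)) (Y := Y) (H := E + 2 * k) (E := E)
      hx hxr (by omega) (by omega) (by omega) (by omega) (by omega) (by omega) (by omega)
      (by omega) ha
    have e : B - V + V = B := by ring
    rw [e] at this
    have h4 : 0 < c ^ 4 := by positivity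
    have h5 : P.p (Av (gp (B - V + x) (Y + (E + 2 * k + y - s)) r ∪
      gp (B - V + x) (Y + (s - y - r)) r) (B - V) B Y (Y + (E + 2 * k))) * c ^ 4 ≤ 4 * c * c ^ 4 := by
      refine this.trans ?_
      calc 4 * P.L E V ≤ 4 * c ^ 6 := by linarith
        _ = 4 * c * c ^ 4 * c := by ring
        _ ≤ 4 * c * c ^ 4 * 1 := by
          apply mul_le_mul_of_nonneg_left hc1
          positivity
        _ = 4 * c * c ^ 4 := by ring
    exact le_of_mul_le_mul_right h5 h4
  have hbt : ∀ Y, P.p (BTc (B - V) B (Y + k) (Y + k + E)) ≤ c := by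
    intro Y
    rw [P.B_eq']
    have e1 : Y + k + E - (Y + k) = E := by ring
    have e2 : B - (B - V) = V := by ring
    rw [e1, e2]
    refine hEps.trans ?_
    calc c ^ 6 ≤ c ^ 1 := pow_le_pow_of_le_one hc0.le hc1 (by norm_num)
      _ = c := pow_one c
  have hu := union_le P (fun (i : ℕ) S => BTc (B - V) B (i * k + k) (i * k + k + E) S ∨
      Av (gp (B - V + x) (i * k + (E + 2 * k + y - s)) r ∪
        gp (B - V + x) (i * k + (s - y - r)) r) (B - V) B (i * k) (i * k + (E + 2 * k)) S ∨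
      WArm 0 B 0 (wd B) (B - V + x) (i * k + (E + 2 * k + y - s)) r S ∨
      WArm 0 B 0 (wd B) (B - V + x) (i * k + (s - y - r)) r S) (δ := 7 * c) 400 ?_
  · have h1 : p0 ≤ P.p (fun S => ∃ i ≤ 400,
      (BTc (B - V) B ((i : ℕ) * k + k) (i * k + k + E) S ∨
      Av (gp (B - V + x) (i * k + (E + 2 * k + y - s)) r ∪
        gp (B - V + x) (i * k + (s - y - r)) r) (B - V) B (i * k) (i * k + (E + 2 * k)) S ∨
      WArm 0 B 0 (wd B) (B - V + x) (i * k + (E + 2 * k + y - s)) r S ∨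
      WArm 0 B 0 (wd B) (B - V + x) (i * k + (s - y - r)) r S)) := by
      refine hsq.trans (P.mono _ _ ?_)
      intro S hS
      obtain ⟨i, hi, hi'⟩ := L2det (V := V) (k := k) (E := E) (H := E + 2 * k) (x := x) (r := r)
        (α₁ := E + 2 * k + y - s) (α₂ := s - y - r) (by omega) (by omega) (by omega) (by omega)
        rfl hS
      refine ⟨i, ?_, hi'⟩
      have h5 : wd B ≤ 400 * k := by unfold wd; omega
      have h6 : (i : ℤ) * k ≤ 400 * k := hi.trans h5
      have := le_of_mul_le_mul_right h6 (by omega)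
      omega
    have h2 := h1.trans hu
    push_cast at h2
    have h3 : p0 = 5000 * c := by rw [hc]; ring
    linarith
  · intro i _
    refine (P.or_le _ _).trans ?_
    have g1 := hbt (i * k)
    have g2 := hav (i * k)
    have g3 := hw (i * k + (E + 2 * k + y - s))
    have g4 := hw (i * k + (s - y - r))
    have g5 := P.or_le (Av (gp (B - V + x) (i * k + (E + 2 * k + y - s)) r ∪
        gp (B - V + x) (i * k + (s - y - r)) r) (B - V) B (i * k) (i * k + (E + 2 * k)))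
        (fun S => WArm 0 B 0 (wd B) (B - V + x) (i * k + (E + 2 * k + y - s)) r S ∨
      WArm 0 B 0 (wd B) (B - V + x) (i * k + (s - y - r)) r S)
    have g6 := P.or_le (WArm 0 B 0 (wd B) (B - V + x) (i * k + (E + 2 * k + y - s)) r)
      (WArm 0 B 0 (wd B) (B - V + x) (i * k + (s - y - r)) r)
    linarith

/-- **(L23)** Arms at all scales above a scale beyond which there are no long crossings. -/
theorem armAll {p0 : ℝ} (h0 : 0 < p0) (h01 : p0 ≤ 1) {r N : ℤ} (hr : 1 ≤ r)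
    (hsq : ∀ s, 1 ≤ s → s ≤ N → p0 ≤ P.L s (wd s))
    (heps : ∀ s, r < s → s ≤ N → Eps P s ≤ (p0 / 5000) ^ 6) :
    ∀ B, 9 * r ≤ B → B ≤ N → ARM P (p0 / 5000) B r := by
  have key : ∀ n : ℕ, ∀ B : ℤ, B ≤ n → 9 * r ≤ B → B ≤ N → ARM P (p0 / 5000) B r := by
    intro n
    induction n with
    | zero => intro B h1 h2; omega
    | succ n ih =>
      intro B h1 h2 h3
      rcases lt_or_ge B (2000 * r) with h4 | h4
      · exact L3 h0 hr h2 h4 (hsq B (by omega) h3)
      · exact L2 h0 h01 hr h4 (hsq B (by omega) h3) (ih (B / 10) (by omega) (by omega) (by omega))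
          (heps _ (by omega) (by omega))
  intro B h1 h2
  exact key B.toNat B (by omega) h1 h2

end Vale.Agent.P159.TM.H627.Rsw
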