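import Vale.Agent.P159.TM.H627.RswC

/-!
# Abstract RSW from easy crossings, IV: conclusion
-/

namespace Vale.Agent.P159.TM.H627.Rsw

open Vale.Agent.P145.FB

/-- Long crossings of all aspect ratios at a good scale. -/
theorem long_of_eps {P : PP} {p0 a : ℝ} (h0 : 0 ≤ p0) (ha : 0 ≤ a) {r w : ℤ} (hr : 100 ≤ r)
    (hsq : p0 ≤ P.L (wd r) (wd (wd r))) (h : a ≤ Eps P r) (hw : 0 ≤ w) (hwr : w ≤ 800 * r) {J : ℕ}
    (hJ : J = 9999) : a * (p0 * a) ^ J ≤ P.L w (wd r) := by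
  obtain ⟨k, hk⟩ : ∃ k : ℤ, k = r + r / 4 - wd (wd r) := ⟨_, rfl⟩
  have hk1 : r / 10 ≤ k := by rw [hk]; unfold wd; omega
  have e : wd (wd r) + k = r + r / 4 := by rw [hk]; ring
  have h1 := L_glue_iter P h0 (h := wd r) (v := wd (wd r)) (k := k) (by unfold wd; omega)
    (by unfold wd; omega) (by omega) hsq ha (by rw [e]; exact h) J
  refine h1.trans (P.L_mono geo hw ?_ le_rfl)
  have h2 : ((J + 1 : ℕ) : ℤ) * k = 10000 * k := by rw [hJ]; norm_num
  rw [h2]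
  unfold wd
  omega

/-- **Abstract RSW from easy crossings**: positive association, the symmetries of the square
lattice, short-way crossings of `s × 4s` rectangles at all scales `s ≤ N`, and one edge. -/
theorem rsw_easy (p1 β : ℝ) (hp1 : 0 < p1) (hβ : 0 < β) : ∃ c : ℝ, 0 < c ∧ ∀ (P : PP) (N : ℤ),
    (∀ s, 1 ≤ s → s ≤ N → p1 ≤ P.L s (4 * s)) → β ≤ P.L 1 0 →
    ∀ n, 1 ≤ n → n ≤ N → c ≤ P.L (4 * n) n ∧ ∀ p q : ℤ, c ≤ P.p (Ann p q n) := by
  obtain ⟨β', hβ'⟩ : ∃ β' : ℝ, β' = min β 1 := ⟨_, rfl⟩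
  have hβ0 : 0 < β' := by rw [hβ']; exact lt_min hβ one_pos
  have hβ1 : β' ≤ 1 := by rw [hβ']; exact min_le_right _ _
  have hββ : β' ≤ β := by rw [hβ']; exact min_le_left _ _
  obtain ⟨p0, hp0⟩ : ∃ p0 : ℝ, p0 = min (p1 / 1000) (β' ^ (40 + 1)) := ⟨_, rfl⟩
  have hp00 : 0 < p0 := by rw [hp0]; exact lt_min (by positivity) (pow_pos hβ0 _)
  have hp01 : p0 ≤ 1 := by
    rw [hp0]; exact (min_le_right _ _).trans (pow_le_one₀ hβ0.le hβ1)
  obtain ⟨c', hc'⟩ : ∃ c' : ℝ, c' = p0 / 5000 := ⟨_, rfl⟩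
  have hc'0 : 0 < c' := by rw [hc']; positivity
  obtain ⟨ε, hε⟩ : ∃ ε : ℝ, ε = c' ^ 6 := ⟨_, rfl⟩
  have hε0 : 0 < ε := by rw [hε]; positivity
  obtain ⟨J, hJ⟩ : ∃ J : ℕ, J = 9999 := ⟨_, rfl⟩
  obtain ⟨K, hK⟩ : ∃ K : ℕ, K = 80000 := ⟨_, rfl⟩
  obtain ⟨K', hK'⟩ : ∃ K : ℕ, K = 1600 := ⟨_, rfl⟩
  obtain ⟨cL, hcL⟩ : ∃ cL : ℝ, cL = min (ε * (p0 * ε) ^ J) (β' ^ (K + 1)) := ⟨_, rfl⟩
  have hcL0 : 0 < cL := by
    rw [hcL]
    exact lt_min (mul_pos hε0 (pow_pos (mul_pos hp00 hε0) _)) (pow_pos hβ0 _)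
  obtain ⟨b, hb⟩ : ∃ b : ℝ, b = c' * c' * cL ^ 4 := ⟨_, rfl⟩
  have hb0 : 0 < b := by rw [hb]; positivity
  obtain ⟨c, hc⟩ : ∃ c : ℝ, c = min (β' ^ (K' + 1)) (min cL (b * (p0 * b) ^ 5)) := ⟨_, rfl⟩
  have hc0 : 0 < c := by
    rw [hc]
    exact lt_min (pow_pos hβ0 _) (lt_min hcL0 (by positivity))
  have hc1 : c ≤ 1 := by
    rw [hc]; exact (min_le_left _ _).trans (pow_le_one₀ hβ0.le hβ1)
  refine ⟨c ^ 4, by positivity, fun P N heasy hedge n hn hnN => ?_⟩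
  have hedge' : β' ≤ P.L 1 0 := hββ.trans hedge
  -- it is enough to bound the long crossing
  suffices key : c ≤ P.L (4 * n) n by
    have h4 : c ^ 4 ≤ c := by
      calc c ^ 4 ≤ c ^ 1 := pow_le_pow_of_le_one hc0.le hc1 (by norm_num)
        _ = c := pow_one c
    exact ⟨h4.trans key, fun p q => P.Ann_ge p q hc0.le key⟩
  -- near-squares
  have hsq : ∀ t, 1 ≤ t → t ≤ N → p0 ≤ P.L t (wd t) := by
    intro t ht htN
    rw [hp0]
    rcases lt_or_ge t 40 with h | h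
    · exact (min_le_right _ _).trans (L_small P hβ0.le hβ1 hedge' (by omega) (by norm_num; omega)
        (by unfold wd; omega))
    · exact (min_le_left _ _).trans (step0 h (heasy t ht htN))
  rcases lt_or_ge n 400 with hn4 | hn4
  · rw [hc]
    exact (min_le_left _ _).trans (L_small P hβ0.le hβ1 hedge' (by omega)
      (by rw [hK']; push_cast; omega) (by omega))
  -- the last good scale
  obtain ⟨T, hT⟩ : ∃ T : ℤ, T = n - n / 20 := ⟨_, rfl⟩
  obtain ⟨r, ⟨hr100, hrT, hrg⟩, hrmax⟩ := Int.exists_greatest_of_bdd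
    (P := fun t : ℤ => 100 ≤ t ∧ t ≤ T ∧ (t = 100 ∨ ε < Eps P t)) ⟨T, fun z hz => hz.2.1⟩
    ⟨100, le_rfl, by omega, Or.inl rfl⟩
  have heps : ∀ s, r < s → s ≤ T → Eps P s ≤ ε := by
    intro s h1 h2
    by_contra h3
    push Not at h3
    have := hrmax s ⟨by omega, h2, Or.inr h3⟩
    omega
  have hwr : wd r ≤ n := by unfold wd; omega
  have hlong : ∀ w, 0 ≤ w → w ≤ 800 * r → cL ≤ P.L w (wd r) := by
    intro w hw hw8
    rw [hcL]
    rcases hrg with rfl | h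
    · exact (min_le_right _ _).trans (L_small P hβ0.le hβ1 hedge' hw
        (by rw [hK]; push_cast; omega) (by unfold wd; norm_num))
    · exact (min_le_left _ _).trans (long_of_eps hp00.le hε0.le hr100
        (hsq _ (by unfold wd; omega) (hwr.trans hnN)) h.le hw hw8 hJ)
  rcases lt_or_ge n (200 * r) with hnr | hnr
  · have h1 : cL ≤ P.L (4 * n) n :=
      (hlong (4 * n) (by omega) (by omega)).trans (P.L_mono geo (by omega) le_rfl hwr)
    rw [hc]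
    exact (min_le_right _ _).trans ((min_le_left _ _).trans h1)
  · obtain ⟨B, hB⟩ : ∃ B : ℤ, B = n - n / 10 := ⟨_, rfl⟩
    obtain ⟨x, y, hx, hxr, hy, hyr, harm⟩ := armAll (P := P) hp00 hp01 (r := r) (N := T) (by omega)
      (fun s h1 h2 => hsq s h1 (by omega)) (by rw [← hc', ← hε]; exact heps) B (by omega) (by omega)
    rw [← hc'] at harm
    obtain ⟨t, ht⟩ : ∃ t : ℤ, t = wd r := ⟨_, rfl⟩
    have ht1 : r ≤ t ∧ t ≤ r + r / 20 := by rw [ht]; unfold wd; omega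
    have hA : cL ^ 4 ≤ P.p (Ann x y t) := P.Ann_ge x y hcL0.le (by
      rw [ht]; exact hlong _ (by omega) (by omega))
    have h4 := L4 P hc'0.le (by positivity) (by omega : 0 < t) (by omega) ht1.1 hx hxr
      (by omega) harm hA
    rw [← hb] at h4
    have h5 : b ≤ P.L (wd n + n / 2) n := by
      refine h4.trans (P.L_mono geo (by unfold wd; omega) ?_ ?_)
      · unfold wd; omega
      · unfold wd; omega
    have h6 := L_glue_iter P hp00.le (h := n) (v := wd n) (k := n / 2) (by omega)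
      (by unfold wd; omega) (by omega) (hsq n hn hnN) hb0.le h5 5
    have h7 : b * (p0 * b) ^ 5 ≤ P.L (4 * n) n := by
      refine h6.trans (P.L_mono geo (by omega) ?_ le_rfl)
      push_cast
      unfold wd
      omega
    rw [hc]
    exact (min_le_right _ _).trans ((min_le_right _ _).trans h7)

end Vale.Agent.P159.TM.H627.Rsw

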